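import Vale.Agent.P155.EXA878.Near

/-!
# P155: every bounded simply connected domain has Temperleyan approximations
-/

namespace Vale.Agent.P155.EXA

open Relation LatCycle Set Topology Filter

variable {Ω : Set ℂ} {δ : ℝ}

theorem sqr_six (hδ : 0 < δ) {f : Pt} : sqr δ 0 f ⊆ sqr (6 * δ) 0 (f.1 / 6, f.2 / 6) := by
  intro z hz
  rw [KConn.mem_sqr hδ] at hz
  rw [KConn.mem_sqr (by linarith : (0 : ℝ) < 6 * δ)]
  have ex : KConn.gx (6 * δ) 0 z = KConn.gx δ 0 z / 6 := by unfold KConn.gx; field_simp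
  have ey : KConn.gy (6 * δ) 0 z = KConn.gy δ 0 z / 6 := by unfold KConn.gy; field_simp
  obtain ⟨z1, z2, z3, z4⟩ := hz
  rw [ex, ey]
  have key : ∀ p : ℤ, (6 : ℝ) * ((p / 6 : ℤ) : ℝ) ≤ p ∧ (p : ℝ) + 1 ≤ 6 * ((p / 6 : ℤ) : ℝ) + 6 := by
    intro p
    constructor
    · exact_mod_cast (by omega : 6 * (p / 6) ≤ p)
    · exact_mod_cast (by omega : p + 1 ≤ 6 * (p / 6) + 6)
  obtain ⟨k1, k2⟩ := key f.1
  obtain ⟨k3, k4⟩ := key f.2
  simp only
  refine ⟨?_, ?_, ?_, ?_⟩ <;> linarith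

/-- `T` is the approximation of mesh `δ` with base block `f0` -/
def IsApp (Ω : Set ℂ) (δ : ℝ) (f0 : Pt) (T : Temp) : Prop :=
  ∀ f, T.γ.inside f ↔ f ∈ ref3 (cb Ω (6 * δ) f0)

theorem exists_app (hΩ : IsOpen Ω) (hb : Bornology.IsBounded Ω) (hsc : SimplyConnectedSpace Ω)
    (hδ : 0 < δ) {f0 : Pt} (h0 : f0 ∉ badN Ω (6 * δ)) : ∃ T, IsApp Ω δ f0 T := by
  obtain ⟨γ, hγ⟩ := (disc_ref3 (disc_cb hΩ hb hsc (by linarith) h0)).exists_cycle noPinch_ref3
  exact ⟨⟨γ, 0⟩, hγ⟩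

theorem cb_notMem {h : ℝ} {f0 f : Pt} (h0 : f0 ∉ badN Ω h) (hf : f ∈ cb Ω h f0) :
    f ∉ badN Ω h := by
  rcases ReflTransGen.cases_tail hf with e | ⟨c, -, hc⟩
  · rw [e]; exact h0
  · exact hc.2.1

section fix

variable {f0 : Pt} {T : Temp} (hδ : 0 < δ) (h0 : f0 ∉ badN Ω (6 * δ)) (hT : IsApp Ω δ f0 T)
include hδ h0 hT

omit hδ h0 in
theorem mem_faceSet' {v : Pt} : v ∈ T.faceSet ↔ (v.1 / 6, v.2 / 6) ∈ cb Ω (6 * δ) f0 ∧
    ((v.1 / 6 + ((v.1 / 2) % 3 - 1), v.2 / 6) ∈ cb Ω (6 * δ) f0 ∨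
      (v.1 / 6, v.2 / 6 + ((v.2 / 2) % 3 - 1)) ∈ cb Ω (6 * δ) f0) := by
  have e : ∀ x : ℤ, x / 2 / 3 = x / 6 := by intro x; omega
  rw [A1.mem_faceSet, hT]
  unfold ref3
  rw [mem_ofPred_eq]
  simp only [e]

/-- a cell off the polygon is near a bad block, or far from the component -/
theorem near_of_notMem {v : Pt} (hv : v ∉ T.faceSet) {b : Pt} (hb : b ∈ cb Ω (6 * δ) f0)
    (hn : Near (v.1 / 6, v.2 / 6) b) :
    ∃ g ∈ badN Ω (6 * δ), |g.1 - v.1 / 6| ≤ 1 ∧ |g.2 - v.2 / 6| ≤ 1 := by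
  by_contra hcon
  push Not at hcon
  have hgood : ∀ k : Pt, Near k (v.1 / 6, v.2 / 6) → k ∈ (badN Ω (6 * δ))ᶜ := by
    rintro k ⟨k1, k2, k3, k4⟩ hk
    dsimp only at k1 k2 k3 k4
    have := hcon k hk (by rw [abs_le]; omega)
    rw [lt_abs] at this
    omega
  have h1 : ((v.1 / 6, v.2 / 6) : Pt) ∈ cb Ω (6 * δ) f0 :=
    ReflTransGen.trans hb (near_path (S := (badN Ω (6 * δ))ᶜ) hgood hn.symm)
  apply hv
  rw [mem_faceSet' hT]
  refine ⟨h1, Or.inl ?_⟩
  have hm : (v.1 / 2) % 3 = 0 ∨ (v.1 / 2) % 3 = 1 ∨ (v.1 / 2) % 3 = 2 := by omega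
  rcases hm with e | e | e
  · rw [e]
    refine ReflTransGen.tail h1 ⟨hgood _ (Near.refl _), hgood _ ?_, adj_of ?_⟩
    · unfold Near; dsimp only; omega
    · dsimp only; omega
  · rw [e, sub_self, add_zero]
    exact h1
  · rw [e]
    refine ReflTransGen.tail h1 ⟨hgood _ (Near.refl _), hgood _ ?_, adj_of ?_⟩
    · unfold Near; dsimp only; omega
    · dsimp only; omega

theorem region_sub : region δ 0 T.faceSet ⊆ Ω := by
  intro z hz
  obtain ⟨v, hv, hzv⟩ := mem_region_iff.1 hz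
  have h1 := ((mem_faceSet' hT).1 hv).1
  have h2 := cb_notMem h0 h1
  by_contra hzΩ
  exact h2 (bad_sub (fun hs => hzΩ (hs (sqr_six hδ hzv))))

/-- the boundary of the polygon is close to the boundary of the domain -/
theorem frontier_close {z : ℂ} (hz : z ∈ frontier (region δ 0 T.faceSet)) :
    ∃ y ∈ frontier Ω, dist z y ≤ 36 * δ := by
  have hcl : IsClosed (region δ 0 T.faceSet) :=
    (KConn.isCompact_region hδ (A1.faceSet_finite T)).isClosed
  have hzr : z ∈ region δ 0 T.faceSet := hcl.frontier_subset hz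
  have hzi := hz.2
  rw [KConn.mem_interior_region_iff hδ] at hzi
  push Not at hzi
  obtain ⟨v, hzv, hv⟩ := hzi
  obtain ⟨v', hv', hzv'⟩ := mem_region_iff.1 hzr
  have hb := ((mem_faceSet' hT).1 hv').1
  have h6 : (0 : ℝ) < 6 * δ := by linarith
  have hzb : z ∈ sqr (6 * δ) 0 (v.1 / 6, v.2 / 6) := sqr_six hδ hzv
  obtain ⟨g, ⟨k, hk, k1, k2, k3, k4⟩, g1, g2⟩ := near_of_notMem hδ h0 hT hv hb
    (KConn.close_of_meet h6 hzb (sqr_six hδ hzv'))
  obtain ⟨w, hwk, hwΩ⟩ := not_subset.1 hk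
  rw [abs_le] at g1 g2
  have hd := dist_of_near h6 hzb hwk (n := 2) (by rw [abs_le]; dsimp only; omega)
    (by rw [abs_le]; dsimp only; omega)
  have hzΩ : z ∈ Ω := region_sub hδ h0 hT hzr
  have huniv : Ω ≠ univ := fun h => hwΩ (h ▸ mem_univ w)
  obtain ⟨y, hy, hzy⟩ := exists_mem_frontier_infDist_compl_eq_dist hzΩ huniv
  refine ⟨y, hy, ?_⟩
  rw [← hzy]
  refine (Metric.infDist_le_dist_of_mem (show w ∈ Ωᶜ from hwΩ)).trans ?_
  push_cast at hd
  linarith

/-- the polygon contains the connected sets well inside `Ω` which contain the base point -/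
theorem sub_interior (hb : Bornology.IsBounded Ω) {K : Set ℂ} (hK : IsPreconnected K)
    (hKd : ∀ z ∈ K, Metric.closedBall z (60 * δ) ⊆ Ω) {z0 : ℂ} (hz0 : z0 ∈ K)
    (hzf : z0 ∈ sqr (6 * δ) 0 f0) : K ⊆ interior (region δ 0 T.faceSet) := by
  intro z hz
  have h6 : (0 : ℝ) < 6 * δ := by linarith
  have hKd' : ∀ z ∈ K, Metric.closedBall z (10 * (6 * δ)) ⊆ Ω := by
    intro z hz
    have e : 10 * (6 * δ) = 60 * δ := by ring
    rw [e]
    exact hKd z hz
  rw [KConn.mem_interior_region_iff hδ]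
  intro v hzv
  by_contra hv
  have hzb : z ∈ sqr (6 * δ) 0 (v.1 / 6, v.2 / 6) := sqr_six hδ hzv
  have h1 := sub_region_cb h6 hb hK hKd' hz0 hzf hz hzb
  obtain ⟨g, hg, g1, g2⟩ := near_of_notMem hδ h0 hT hv h1 (Near.refl _)
  rw [abs_le] at g1 g2
  exact notMem_badN h6 (hKd' z hz) hzb (by rw [abs_le]; dsimp only; omega)
    (by rw [abs_le]; dsimp only; omega) hg

end fix

/-- **Every bounded simply connected domain has a sequence of Temperleyan approximations.** -/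
theorem exists_approx (Ω : Set ℂ) (hΩ : IsOpen Ω) (hb : Bornology.IsBounded Ω) (hne : Ω.Nonempty)
    (hsc : SimplyConnectedSpace Ω) : Nonempty (TempApprox Ω) := by
  classical
  obtain ⟨z0, hz0⟩ := hne
  obtain ⟨r, hr, hrΩ⟩ := Metric.isOpen_iff.1 hΩ z0 hz0
  have hconn : IsConnected Ω := by
    have : PathConnectedSpace Ω := inferInstance
    exact (isConnected_iff_connectedSpace).2 inferInstance
  let δ : ℕ → ℝ := fun n => r / (120 * (n + 1))
  have hδ : ∀ n, 0 < δ n := fun n => by positivity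
  have hδr : ∀ n, 60 * δ n ≤ r / 2 := by
    intro n
    show 60 * (r / (120 * ((n : ℝ) + 1))) ≤ r / 2
    rw [mul_div_assoc', div_le_div_iff₀ (by positivity) (by norm_num)]
    nlinarith [hr, (Nat.cast_nonneg n : (0 : ℝ) ≤ n)]
  have hδ0 : Tendsto δ atTop (𝓝 0) := by
    have h1 : Tendsto (fun n : ℕ => (r / 120) * (1 / ((n : ℝ) + 1))) atTop (𝓝 (r / 120 * 0)) :=
      tendsto_one_div_add_atTop_nhds_zero_nat.const_mul _
    rw [mul_zero] at h1
    refine h1.congr fun n => ?_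
    show r / 120 * (1 / ((n : ℝ) + 1)) = r / (120 * ((n : ℝ) + 1))
    field_simp
  let f0 : ℕ → Pt := fun n => K.cell (6 * δ n) 0 z0
  have hf0 : ∀ n, z0 ∈ sqr (6 * δ n) 0 (f0 n) := fun n =>
    Q1.mem_sqr_cell (by linarith [hδ n]) z0
  have h0 : ∀ n, f0 n ∉ badN Ω (6 * δ n) := by
    intro n
    refine notMem_badN (by linarith [hδ n]) (z := z0) ?_ (hf0 n) (by simp) (by simp)
    refine (Metric.closedBall_subset_ball ?_).trans hrΩ
    have := hδr n
    linarith
  choose T hT using fun n => exists_app hΩ hb hsc (hδ n) (h0 n)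
  -- compact sets
  have hcara : ∀ K ⊆ Ω, IsCompact K → ∀ᶠ n in atTop,
      K ⊆ interior (region (δ n) 0 (T n).faceSet) := by
    intro K hKΩ hK
    obtain ⟨K', h1, h2, h3, h4, h5⟩ := exists_conn_compact hΩ hconn hK hKΩ hz0
    obtain ⟨ε, hε, hεΩ⟩ := h1.exists_cthickening_subset_open hΩ h5
    have hev : ∀ᶠ n in atTop, 60 * δ n < ε := by
      have := hδ0.const_mul 60
      rw [mul_zero] at this
      exact this.eventually_lt_const hε
    filter_upwards [hev] with n hn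
    refine h3.trans (sub_interior (hδ n) (h0 n) (hT n) hb h2 ?_ h4 (hf0 n))
    intro z hz
    refine subset_trans ?_ hεΩ
    exact (Metric.closedBall_subset_closedBall hn.le).trans
      (Metric.closedBall_subset_cthickening hz ε)
  refine ⟨⟨T, δ, fun _ => 0, hδ, hδ0, ⟨0, by simp⟩, hcara, ?_, ?_, ?_, ?_⟩⟩
  · intro U _ _ _ hf
    obtain ⟨n, hn⟩ := hf.exists
    exact hn.trans (region_sub (hδ n) (h0 n) (hT n))
  · intro ε hε
    have hev : ∀ᶠ n in atTop, 36 * δ n < ε := by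
      have := hδ0.const_mul 36
      rw [mul_zero] at this
      exact this.eventually_lt_const hε
    filter_upwards [hev] with n hn
    intro z hz
    obtain ⟨y, hy, hzy⟩ := frontier_close (hδ n) (h0 n) (hT n) hz
    exact Metric.mem_thickening_iff.2 ⟨y, hy, by linarith⟩
  · intro ε hε
    -- finitely many points of `Ω` close to the whole boundary
    have hfc : IsCompact (frontier Ω) :=
      Metric.isCompact_of_isClosed_isBounded isClosed_frontier
        (hb.closure.subset frontier_subset_closure)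
    have hcov : frontier Ω ⊆ ⋃ y ∈ Ω, Metric.ball y (ε / 2) := by
      intro x hx
      obtain ⟨y, hy, hxy⟩ := Metric.mem_closure_iff.1 (frontier_subset_closure hx) (ε / 2)
        (by linarith)
      exact mem_iUnion₂.2 ⟨y, hy, hxy⟩
    obtain ⟨t, htΩ, htf, ht⟩ := hfc.elim_finite_subcover_image (fun y _ => Metric.isOpen_ball) hcov
    filter_upwards [hcara t htΩ htf.isCompact] with n hn
    intro x hx
    obtain ⟨y, hy, hxy⟩ := mem_iUnion₂.1 (ht hx)
    have hxΩ : x ∉ Ω := by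
      rw [hΩ.frontier_eq] at hx
      exact hx.2
    have hxr : x ∉ region (δ n) 0 (T n).faceSet := fun h => hxΩ
      (region_sub (hδ n) (h0 n) (hT n) h)
    have hyr : y ∈ region (δ n) 0 (T n).faceSet := interior_subset (hn hy)
    obtain ⟨w, hw, hyw⟩ := exists_mem_frontier_infDist_compl_eq_dist hyr
      (fun h => hxr (h ▸ mem_univ x))
    refine Metric.mem_thickening_iff.2 ⟨w, hw, ?_⟩
    have h1 : dist y w ≤ dist y x := by
      rw [← hyw]
      exact Metric.infDist_le_dist_of_mem (show x ∈ (region (δ n) 0 (T n).faceSet)ᶜ from hxr)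
    have h2 : dist x y < ε / 2 := hxy
    have h3 := dist_triangle x y w
    rw [dist_comm y x] at h1
    linarith
  · intro ε hε
    refine Eventually.of_forall fun n => ?_
    exact (region_sub (hδ n) (h0 n) (hT n)).trans (Metric.self_subset_thickening hε _)

end Vale.Agent.P155.EXA
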