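import Vale.Agent.P155.EXA878.Refine
import Vale.Agent.P155.H878.Lat
import Vale.Agent.P155.Outer
import Vale.Agent.P153.R2.TOP.Sep

/-!
# P155, existence of Temperleyan approximations: the blocks well inside a simply connected domain
-/

namespace Vale.Agent.P155.EXA

open Relation LatCycle Set Topology P153.TOP

/-- A bounded simply connected open set has no holes: a compact set with boundary in `Ω` is
contained in `Ω`. -/
theorem sub_of_frontier {Ω : Set ℂ} (hΩ : IsOpen Ω) (hsc : SimplyConnectedSpace Ω) {K : Set ℂ}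
    (hK : IsCompact K) (hfr : frontier K ⊆ Ω) : K ⊆ Ω := by
  intro q hqK
  by_contra hq
  have hqf : q ∉ frontier K := fun h => hq (hfr h)
  obtain ⟨R, hR⟩ := hK.isBounded.subset_closedBall 0
  have hfK : IsCompact (frontier K) := hK.of_isClosed_subset isClosed_frontier
    hK.isClosed.frontier_subset
  -- a point outside
  let p : ℂ := ((|R| + 1 : ℝ) : ℂ)
  have hp : p ∉ Metric.closedBall (0 : ℂ) R := by
    rw [mem_closedBall_zero_iff, Complex.norm_real, Real.norm_eq_abs, abs_of_pos (by positivity)]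
    have := le_abs_self R
    linarith
  have hpK : p ∉ K := fun h => hp (hR h)
  have hpf : p ∉ frontier K := fun h => hpK (hK.isClosed.frontier_subset h)
  -- logarithms
  have h1 : LogOn (frontier K) (fun z => z - p) := by
    refine ((hasLogOn_of_convex (convex_closedBall (0 : ℂ) R)) _ (by fun_prop) ?_).mono
      (hK.isClosed.frontier_subset.trans hR)
    intro z hz h0
    exact hp (by rwa [← sub_eq_zero.1 h0])
  have h2 : LogOn (frontier K) (fun z => z - q) := by
    have hl : LocallyPathConnectedSpace Ω := hΩ.locallyPathConnectedSpace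
    have h3 : HasLogOn Ω := hasLogOn_of_subtype fun f hf => by
      obtain ⟨F, hF, hF'⟩ := hasLogOn_univ_of_simplyConnected Ω f f.continuous.continuousOn
        (fun x _ => hf x)
      exact ⟨⟨F, continuousOn_univ.1 hF⟩, fun x => hF' x (mem_univ _)⟩
    refine (h3 _ (by fun_prop) ?_).mono hfr
    intro z hz h0
    exact hq (by rwa [← sub_eq_zero.1 h0])
  -- `p` and `q` are joined off the frontier
  have hj := (joinedIn_of_logOn hfK hpf hqf (h1.div h2))
  obtain ⟨γ, hγ⟩ := hj
  have hr : IsPreconnected (range γ) := isPreconnected_range γ.continuous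
  have hd := disjoint_of_frontier hr hK.isClosed (Set.disjoint_left.2 (by
    rintro _ ⟨t, rfl⟩ hz
    exact hγ t hz)) ⟨0, γ.source⟩ hpK
  exact Set.disjoint_left.1 hd ⟨1, γ.target⟩ hqK

/-! ### blocks -/

/-- the blocks of side `h` which are not inside `Ω` -/
def bad (Ω : Set ℂ) (h : ℝ) : Set Pt := {f | ¬ sqr h 0 f ⊆ Ω}

/-- the cells at distance at most one -/
def Near (a b : Pt) : Prop := a.1 ≤ b.1 + 1 ∧ b.1 ≤ a.1 + 1 ∧ a.2 ≤ b.2 + 1 ∧ b.2 ≤ a.2 + 1

theorem Near.symm {a b : Pt} (h : Near a b) : Near b a := ⟨h.2.1, h.1, h.2.2.2, h.2.2.1⟩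

theorem Near.refl (a : Pt) : Near a a := by unfold Near; omega

/-- the blocks at distance at most one from a bad block -/
def badN (Ω : Set ℂ) (h : ℝ) : Set Pt := {f | ∃ g ∈ bad Ω h, Near f g}

/-- king steps -/
def Rel8 (S : Set Pt) (a b : Pt) : Prop := a ∈ S ∧ b ∈ S ∧ Near a b

variable {Ω : Set ℂ} {h : ℝ}

theorem box_finite (N : ℤ) : {f : Pt | Box N f}.Finite := by
  refine ((Set.finite_Icc (-N) N).prod (Set.finite_Icc (-N) N)).subset ?_
  intro v hv
  exact ⟨⟨hv.1, hv.2.1⟩, ⟨hv.2.2.1, hv.2.2.2⟩⟩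

/-- bad blocks are joined to infinity -/
theorem bad_far (hΩ : IsOpen Ω) (hsc : SimplyConnectedSpace Ω) (hh : 0 < h) (N : ℤ) {g : Pt}
    (hg : g ∈ bad Ω h) : ∃ g', ¬ Box N g' ∧ ReflTransGen (Rel8 (bad Ω h)) g g' := by
  by_contra hcon
  push Not at hcon
  let B : Set Pt := {f | ReflTransGen (Rel8 (bad Ω h)) g f}
  have hBb : ∀ f ∈ B, f ∈ bad Ω h := by
    intro f hf
    rcases hf.cases_tail with e | ⟨c, -, hc⟩
    · rw [e]; exact hg
    · exact hc.2.1
  have hBN : ∀ f ∈ B, Box N f := by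
    intro f hf
    by_contra hN
    exact hcon f hN hf
  have hBfin : B.Finite := (box_finite N).subset hBN
  have hK : IsCompact (region h 0 B) := KConn.isCompact_region hh hBfin
  have hfr : frontier (region h 0 B) ⊆ Ω := by
    intro z hz
    have h1 : z ∈ region h 0 B := hK.isClosed.frontier_subset hz
    have h2 : z ∉ interior (region h 0 B) := hz.2
    rw [KConn.mem_interior_region_iff hh] at h2
    push Not at h2
    obtain ⟨f, hzf, hfB⟩ := h2
    unfold region at h1
    rw [mem_iUnion₂] at h1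
    obtain ⟨k, hk, hzk⟩ := h1
    by_contra hzΩ
    have hfb : f ∈ bad Ω h := fun hs => hzΩ (hs hzf)
    exact hfB (hk.tail ⟨hBb k hk, hfb, KConn.close_of_meet hh hzk hzf⟩)
  have hsub := sub_of_frontier hΩ hsc hK hfr
  apply hg
  refine subset_trans ?_ hsub
  exact subset_biUnion_of_mem (u := fun f => sqr h 0 f) (show g ∈ B from ReflTransGen.refl)

/-- a cell near `g` is joined to `g` in the `3 × 3` square around `g` -/
theorem near_path {S : Set Pt} {f g : Pt} (hS : ∀ k, Near k g → k ∈ S) (h : Near f g) :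
    ReflTransGen (Rel S) f g := by
  obtain ⟨h1, h2, h3, h4⟩ := h
  have e1 : ReflTransGen (Rel S) f (g.1, f.2) := by
    by_cases e : f.1 = g.1
    · rw [← e]
    · refine ReflTransGen.single ⟨hS _ ⟨h1, h2, h3, h4⟩, hS _ ?_, adj_of ?_⟩
      · unfold Near; dsimp only; omega
      · dsimp only; omega
  refine e1.trans ?_
  by_cases e : f.2 = g.2
  · rw [e]
  · refine ReflTransGen.single ⟨hS _ ?_, hS _ (Near.refl g), adj_of ?_⟩
    · unfold Near; dsimp only; omega
    · dsimp only; omega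

theorem bad_sub : bad Ω h ⊆ badN Ω h := fun f hf => ⟨f, hf, Near.refl f⟩

/-- the neighbours of bad blocks are joined to infinity by edge steps -/
theorem badN_far (hΩ : IsOpen Ω) (hsc : SimplyConnectedSpace Ω) (hh : 0 < h) (N : ℤ) {f : Pt}
    (hf : f ∈ badN Ω h) : ∃ g', ¬ Box N g' ∧ ReflTransGen (Rel (badN Ω h)) f g' := by
  obtain ⟨g, hg, hfg⟩ := hf
  obtain ⟨g', hN, hp⟩ := bad_far hΩ hsc hh N hg
  refine ⟨g', hN, (near_path (S := badN Ω h) (fun k hk => ⟨g, hg, hk⟩) hfg).trans ?_⟩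
  clear hN hfg
  induction hp with
  | refl => exact ReflTransGen.refl
  | @tail b c _ hs ih => exact ih.trans (near_path (S := badN Ω h) (fun k hk => ⟨c, hs.2.1, hk⟩) hs.2.2)

/-- the component of the block `f0` -/
def cb (Ω : Set ℂ) (h : ℝ) (f0 : Pt) : Set Pt := {f | ReflTransGen (Rel (badN Ω h)ᶜ) f0 f}

/-- far blocks are bad -/
theorem exists_box (hb : Bornology.IsBounded Ω) (hh : 0 < h) :
    ∃ M : ℤ, 0 ≤ M ∧ ∀ f, ¬ Box M f → f ∈ bad Ω h := by
  obtain ⟨R, hR⟩ := hb.subset_closedBall 0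
  obtain ⟨n, hn⟩ := exists_nat_gt (R / h)
  refine ⟨n, by positivity, ?_⟩
  intro f hf hs
  have hnR : R < n * h := (div_lt_iff₀ hh).1 hn
  have hz : ((h * f.1 : ℝ) : ℂ) + ((h * f.2 : ℝ) : ℂ) * Complex.I ∈ sqr h 0 f :=
    ⟨0, 0, le_rfl, zero_le_one, le_rfl, zero_le_one, by push_cast; ring⟩
  have h1 := mem_closedBall_zero_iff.1 (hR (hs hz))
  have h2 : |h * f.1| ≤ R := by
    refine le_trans (le_trans ?_ (Complex.abs_re_le_norm _)) h1
    simp
  have h3 : |h * f.2| ≤ R := by
    refine le_trans (le_trans ?_ (Complex.abs_im_le_norm _)) h1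
    simp
  apply hf
  have key : ∀ x : ℤ, |h * x| ≤ R → -(n : ℤ) ≤ x ∧ x ≤ n := by
    intro x hx
    rw [abs_le] at hx
    constructor
    · by_contra hlt
      have : (x : ℝ) ≤ -n - 1 := by exact_mod_cast (by omega : x ≤ -(n : ℤ) - 1)
      nlinarith
    · by_contra hlt
      have : (n : ℝ) + 1 ≤ x := by exact_mod_cast (by omega : (n : ℤ) + 1 ≤ x)
      nlinarith
  exact ⟨(key _ h2).1, (key _ h2).2, (key _ h3).1, (key _ h3).2⟩

/-- the component of `f0` is a disc -/
theorem disc_cb (hΩ : IsOpen Ω) (hb : Bornology.IsBounded Ω) (hsc : SimplyConnectedSpace Ω)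
    (hh : 0 < h) {f0 : Pt} (h0 : f0 ∉ badN Ω h) : Disc (cb Ω h f0) := by
  obtain ⟨M, hM0, hM⟩ := exists_box hb hh
  have hsub : ∀ f ∈ cb Ω h f0, f ∉ badN Ω h := by
    intro f hf
    rcases hf.cases_tail with e | ⟨c, -, hc⟩
    · rw [e]; exact h0
    · exact hc.2.1
  refine ⟨⟨M, ?_⟩, ⟨f0, ReflTransGen.refl⟩, ?_, ?_⟩
  · intro f hf
    by_contra hbox
    exact hsub f hf (bad_sub (hM f hbox))
  · -- connectedness
    have key : ∀ f ∈ cb Ω h f0, ReflTransGen (Rel (cb Ω h f0)) f0 f := by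
      intro f hf
      have : ∀ g, ReflTransGen (Rel (badN Ω h)ᶜ) f0 g → ReflTransGen (Rel (cb Ω h f0)) f0 g := by
        intro g hg
        induction hg with
        | refl => exact ReflTransGen.refl
        | tail h1 h2 ih => exact ih.tail ⟨h1, h1.tail h2, h2.2.2⟩
      exact this f hf
    intro f hf g hg
    exact (rel_symm (key f hf)).trans (key g hg)
  · -- the complement
    intro N f hf
    -- from `badN` to infinity
    have hfar : ∀ g ∈ badN Ω h, ∃ g', ¬ Box N g' ∧ ReflTransGen (Rel (cb Ω h f0)ᶜ) g g' := by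
      intro g hg
      obtain ⟨g', h1, h2⟩ := badN_far hΩ hsc hh N hg
      exact ⟨g', h1, rel_mono (fun k hk hk' => hsub k hk' hk) h2⟩
    suffices hsuf : ∃ g ∈ badN Ω h, ReflTransGen (Rel (cb Ω h f0)ᶜ) f g by
      obtain ⟨g, hg, hfg⟩ := hsuf
      obtain ⟨g', h1, h2⟩ := hfar g hg
      exact ⟨g', h1, hfg.trans h2⟩
    by_contra hno
    push Not at hno
    -- walk to the right
    have hright : ∀ k : ℕ, (f.1 + k, f.2) ∉ badN Ω h ∧
        ReflTransGen (Rel (badN Ω h)ᶜ) f (f.1 + k, f.2) ∧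
        ReflTransGen (Rel (cb Ω h f0)ᶜ) f (f.1 + k, f.2) := by
      intro k
      induction k with
      | zero =>
        have e : ((f.1 + ((0 : ℕ) : ℤ), f.2) : Pt) = f := by simp
        rw [e]
        exact ⟨fun hb => hno f hb ReflTransGen.refl, ReflTransGen.refl, ReflTransGen.refl⟩
      | succ k ih =>
        obtain ⟨i1, i2, i3⟩ := ih
        have hadj : Adj ((f.1 + k, f.2) : Pt) (f.1 + ((k + 1 : ℕ) : ℤ), f.2) :=
          adj_of (by dsimp only; omega)
        have hk : ((f.1 + k, f.2) : Pt) ∉ cb Ω h f0 := by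
          intro h'
          exact hf (h'.trans (rel_symm i2))
        have hk1 : ((f.1 + ((k + 1 : ℕ) : ℤ), f.2) : Pt) ∉ cb Ω h f0 := by
          intro h'
          refine hk (ReflTransGen.tail h' ⟨hsub _ h', i1, P155.L.adj_symm hadj⟩)
        have hp := i3.tail ⟨hk, hk1, hadj⟩
        have hb : ((f.1 + ((k + 1 : ℕ) : ℤ), f.2) : Pt) ∉ badN Ω h := fun hb => hno _ hb hp
        exact ⟨hb, i2.tail ⟨i1, hb, hadj⟩, hp⟩
    have h1 := (hright (|f.1| + M + 1).toNat).1
    apply h1
    apply bad_sub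
    apply hM
    intro hbox
    have h2 := hbox.2.1
    dsimp only at h2
    have h3 := neg_abs_le f.1
    omega

end Vale.Agent.P155.EXA
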