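import Vale.Agent.P155.A.JCT2
import Vale.Agent.P155.L.Cycle

/-!
# P155, existence of Temperleyan approximations: the boundary of a simply connected set of cells is
a simple lattice cycle
-/

namespace Vale.Agent.P155.EXA

open Function LatCycle Relation

/-- a lattice cycle from a successor map -/
theorem exists_latCycle {B : Set Pt} (hB : B.Finite) {s : Pt → Pt} (hs : ∀ v ∈ B, s v ∈ B)
    (hinj : ∀ v ∈ B, ∀ w ∈ B, s v = s w → v = w) (hadj : ∀ v ∈ B, Adj v (s v))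
    (h2 : ∀ v ∈ B, s (s v) ≠ v) {v : Pt} (hv : v ∈ B) :
    ∃ γ : LatCycle, ∀ i, γ.c i ∈ B ∧ γ.c (i + 1) = s (γ.c i) := by
  classical
  have hmem : ∀ n : ℕ, s^[n] v ∈ B := by
    intro n
    induction n with
    | zero => exact hv
    | succ n ih => rw [iterate_succ_apply']; exact hs _ ih
  have hmem' : ∀ (n : ℕ) (x : Pt), x ∈ B → s^[n] x ∈ B := by
    intro n x hx
    induction n with
    | zero => exact hx
    | succ n ih => rw [iterate_succ_apply']; exact hs _ ih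
  have hcancel : ∀ (n : ℕ) (x y : Pt), x ∈ B → y ∈ B → s^[n] x = s^[n] y → x = y := by
    intro n
    induction n with
    | zero => intro x y _ _ h; exact h
    | succ n ih =>
      intro x y hx hy h
      rw [iterate_succ_apply, iterate_succ_apply] at h
      exact hinj _ hx _ hy (ih _ _ (hs _ hx) (hs _ hy) h)
  have hper : v ∈ periodicPts s := by
    have : Finite B := hB
    obtain ⟨i, j, hij, h⟩ : ∃ i j : ℕ, i ≠ j ∧ s^[i] v = s^[j] v := by
      by_contra hcon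
      push Not at hcon
      have hinj : Injective (fun n : ℕ => (⟨s^[n] v, hmem n⟩ : B)) := by
        intro a b hab
        by_contra hne
        exact hcon a b hne (congrArg Subtype.val hab)
      exact not_injective_infinite_finite _ hinj
    wlog hlt : i < j generalizing i j
    · exact this j i hij.symm h.symm (lt_of_le_of_ne (not_lt.1 hlt) hij.symm)
    refine ⟨j - i, Nat.sub_pos_of_lt hlt, ?_⟩
    have h2 : s^[i] (s^[j - i] v) = s^[i] v := by
      rw [← iterate_add_apply, Nat.add_sub_cancel' hlt.le, ← h]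
    exact hcancel i _ _ (hmem _) hv h2
  have hpos : 0 < minimalPeriod s v := minimalPeriod_pos_of_mem_periodicPts hper
  have hit : s^[minimalPeriod s v] v = v := iterate_minimalPeriod
  have h3 : 3 ≤ minimalPeriod s v := by
    by_contra hlt
    have : minimalPeriod s v = 1 ∨ minimalPeriod s v = 2 := by omega
    rcases this with h | h
    · rw [h] at hit
      have h1 := hadj v hv
      rw [show s v = v from hit] at h1
      simp [Adj] at h1
    · rw [h] at hit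
      exact h2 v hv hit
  have : NeZero (minimalPeriod s v) := ⟨by omega⟩
  have hstep : ∀ i : ZMod (minimalPeriod s v), s^[(i + 1).val] v = s (s^[i.val] v) := by
    intro i
    rw [ZMod.val_add, ZMod.val_one'' (by omega), iterate_mod_minimalPeriod_eq,
      iterate_succ_apply']
  refine ⟨⟨minimalPeriod s v, h3, fun i => s^[i.val] v, ?_, ?_⟩, ?_⟩
  · intro i j h
    exact ZMod.val_injective _ (iterate_injOn_Iio_minimalPeriod (ZMod.val_lt i) (ZMod.val_lt j) h)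
  · intro i
    show Adj (s^[i.val] v) (s^[(i + 1).val] v)
    rw [hstep]
    exact hadj _ (hmem _)
  · intro i
    exact ⟨hmem _, hstep i⟩

/-- The directed boundary edges of the set of cells `C` (with `C` on the left). -/
def Out (C : Set Pt) (v w : Pt) : Prop :=
  (w = (v.1 + 1, v.2) ∧ (v.1, v.2) ∈ C ∧ (v.1, v.2 - 1) ∉ C) ∨
  (w = (v.1, v.2 + 1) ∧ (v.1 - 1, v.2) ∈ C ∧ (v.1, v.2) ∉ C) ∨
  (w = (v.1 - 1, v.2) ∧ (v.1 - 1, v.2 - 1) ∈ C ∧ (v.1 - 1, v.2) ∉ C) ∨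
  (w = (v.1, v.2 - 1) ∧ (v.1, v.2 - 1) ∈ C ∧ (v.1 - 1, v.2 - 1) ∉ C)

variable {C : Set Pt}

theorem Out.in {v w : Pt} (h : Out C v w) :
    (v = (w.1 - 1, w.2) ∧ (w.1 - 1, w.2) ∈ C ∧ (w.1 - 1, w.2 - 1) ∉ C) ∨
    (v = (w.1, w.2 - 1) ∧ (w.1 - 1, w.2 - 1) ∈ C ∧ (w.1, w.2 - 1) ∉ C) ∨
    (v = (w.1 + 1, w.2) ∧ (w.1, w.2 - 1) ∈ C ∧ (w.1, w.2) ∉ C) ∨
    (v = (w.1, w.2 + 1) ∧ (w.1, w.2) ∈ C ∧ (w.1 - 1, w.2) ∉ C) := by
  obtain ⟨x, y⟩ := v
  rcases h with ⟨rfl, h1, h2⟩ | ⟨rfl, h1, h2⟩ | ⟨rfl, h1, h2⟩ | ⟨rfl, h1, h2⟩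
  · left; simpa using ⟨h1, h2⟩
  · right; left; simpa using ⟨h1, h2⟩
  · right; right; left; simpa using ⟨h1, h2⟩
  · right; right; right; simpa using ⟨h1, h2⟩

theorem Out.adj {v w : Pt} (h : Out C v w) : Adj v w := by
  obtain ⟨x, y⟩ := v
  rcases h with ⟨rfl, -⟩ | ⟨rfl, -⟩ | ⟨rfl, -⟩ | ⟨rfl, -⟩ <;> simp [Adj]

theorem Out.sides {v w : Pt} (h : Out C v w) :
    ∃ F G, side v w F ∧ side v w G ∧ F ∈ C ∧ G ∉ C := by
  obtain ⟨x, y⟩ := v
  rcases h with ⟨rfl, h1, h2⟩ | ⟨rfl, h1, h2⟩ | ⟨rfl, h1, h2⟩ | ⟨rfl, h1, h2⟩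
  · exact ⟨_, _, by simp [side, corner], by simp [side, corner], h1, h2⟩
  · exact ⟨_, _, by simp [side, corner], by simp [side, corner], h1, h2⟩
  · exact ⟨_, _, by simp [side, corner], by simp [side, corner], h1, h2⟩
  · exact ⟨_, _, by simp [side, corner], by simp [side, corner], h1, h2⟩

/-- no two diagonal cells meet at a vertex -/
def NoPinch (C : Set Pt) : Prop := ∀ x y : ℤ,
  ¬ ((x, y) ∈ C ∧ (x - 1, y - 1) ∈ C ∧ (x - 1, y) ∉ C ∧ (x, y - 1) ∉ C) ∧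
  ¬ ((x - 1, y) ∈ C ∧ (x, y - 1) ∈ C ∧ (x, y) ∉ C ∧ (x - 1, y - 1) ∉ C)

theorem out_unique (hp : NoPinch C) {v w w' : Pt} (h : Out C v w) (h' : Out C v w') : w = w' := by
  obtain ⟨x, y⟩ := v
  have hp' := hp x y
  rcases h with ⟨rfl, h1, h2⟩ | ⟨rfl, h1, h2⟩ | ⟨rfl, h1, h2⟩ | ⟨rfl, h1, h2⟩ <;>
  rcases h' with ⟨rfl, h3, h4⟩ | ⟨rfl, h3, h4⟩ | ⟨rfl, h3, h4⟩ | ⟨rfl, h3, h4⟩ <;>
  first
    | rfl
    | (exfalso; simp only at h1 h2 h3 h4; tauto)

theorem in_unique (hp : NoPinch C) {v v' w : Pt} (h : Out C v w) (h' : Out C v' w) : v = v' := by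
  obtain ⟨x, y⟩ := w
  have hp' := hp x y
  rcases h.in with ⟨rfl, h1, h2⟩ | ⟨rfl, h1, h2⟩ | ⟨rfl, h1, h2⟩ | ⟨rfl, h1, h2⟩ <;>
  rcases h'.in with ⟨rfl, h3, h4⟩ | ⟨rfl, h3, h4⟩ | ⟨rfl, h3, h4⟩ | ⟨rfl, h3, h4⟩ <;>
  first
    | rfl
    | (exfalso; simp only at h1 h2 h3 h4; tauto)

theorem out_next {v w : Pt} (h : Out C v w) : ∃ w', Out C w w' := by
  obtain ⟨x, y⟩ := w
  by_contra hno
  push Not at hno
  have e1 : (x, y) ∈ C → (x, y - 1) ∈ C := by
    intro h1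
    by_contra h2
    exact hno (x + 1, y) (Or.inl ⟨rfl, h1, h2⟩)
  have e2 : (x - 1, y) ∈ C → (x, y) ∈ C := by
    intro h1
    by_contra h2
    exact hno (x, y + 1) (Or.inr (Or.inl ⟨rfl, h1, h2⟩))
  have e3 : (x - 1, y - 1) ∈ C → (x - 1, y) ∈ C := by
    intro h1
    by_contra h2
    exact hno (x - 1, y) (Or.inr (Or.inr (Or.inl ⟨rfl, h1, h2⟩)))
  have e4 : (x, y - 1) ∈ C → (x - 1, y - 1) ∈ C := by
    intro h1
    by_contra h2
    exact hno (x, y - 1) (Or.inr (Or.inr (Or.inr ⟨rfl, h1, h2⟩)))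
  rcases h.in with ⟨-, h1, h2⟩ | ⟨-, h1, h2⟩ | ⟨-, h1, h2⟩ | ⟨-, h1, h2⟩
  · exact h2 (e4 (e1 (e2 h1)))
  · exact h2 (e1 (e2 (e3 h1)))
  · exact h2 (e2 (e3 (e4 h1)))
  · exact h2 (e3 (e4 (e1 h1)))

theorem out_two {v w : Pt} (h : Out C v w) (h' : Out C w v) : False := by
  obtain ⟨x, y⟩ := v
  rcases h with ⟨rfl, h1, h2⟩ | ⟨rfl, h1, h2⟩ | ⟨rfl, h1, h2⟩ | ⟨rfl, h1, h2⟩ <;>
  rcases h' with ⟨h5, h3, h4⟩ | ⟨h5, h3, h4⟩ | ⟨h5, h3, h4⟩ | ⟨h5, h3, h4⟩ <;>
  first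
    | (rw [Prod.mk.injEq] at h5; simp only at h5; omega)
    | (simp only [add_sub_cancel_right] at h1 h2 h3 h4; tauto)

theorem side_eq {u v F G K : Pt} (h : Adj u v) (hF : side u v F) (hG : side u v G)
    (hK : side u v K) (hne : F ≠ G) : K = F ∨ K = G := by
  obtain ⟨F1, F2⟩ := F
  obtain ⟨G1, G2⟩ := G
  obtain ⟨K1, K2⟩ := K
  simp only [ne_eq, Prod.mk.injEq] at hne ⊢
  rcases adj_cases h with rfl | rfl | rfl | rfl <;> simp only [side, corner] at hF hG hK <;> omega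

/-- A finite set of cells, connected, without holes and without pinch points, is the interior of
a simple lattice cycle. -/
theorem exists_cycle (hp : NoPinch C) {M : ℤ}
    (hbox : ∀ f ∈ C, -M ≤ f.1 ∧ f.1 ≤ M ∧ -M ≤ f.2 ∧ f.2 ≤ M) (hne : C.Nonempty)
    (hconn : ∀ f ∈ C, ∀ g ∈ C, ReflTransGen (fun a b => a ∈ C ∧ b ∈ C ∧ Adj a b) f g)
    (hout : ∀ f ∉ C, ∃ g, ¬ (-M ≤ g.1 ∧ g.1 ≤ M ∧ -M ≤ g.2 ∧ g.2 ≤ M) ∧
      ReflTransGen (fun a b => a ∉ C ∧ b ∉ C ∧ Adj a b) f g) :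
    ∃ γ : LatCycle, ∀ f, γ.inside f ↔ f ∈ C := by
  classical
  let B : Set Pt := {v | ∃ w, Out C v w}
  -- corners of `B`
  have hBbox : ∀ v ∈ B, -M ≤ v.1 ∧ v.1 ≤ M + 1 ∧ -M ≤ v.2 ∧ v.2 ≤ M + 1 := by
    rintro v ⟨w, hw⟩
    obtain ⟨F, G, hF, -, hFC, -⟩ := hw.sides
    have h1 := hbox F hFC
    have h2 := hF.1
    unfold corner at h2
    omega
  have hBfin : B.Finite := by
    refine ((Set.finite_Icc (-M) (M + 1)).prod (Set.finite_Icc (-M) (M + 1))).subset ?_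
    intro v hv
    have := hBbox v hv
    exact ⟨⟨this.1, this.2.1⟩, ⟨this.2.2.1, this.2.2.2⟩⟩
  let s : Pt → Pt := fun v => if h : ∃ w, Out C v w then h.choose else v
  have hs : ∀ v ∈ B, Out C v (s v) := by
    intro v hv
    have hv' : ∃ w, Out C v w := hv
    have e : s v = hv'.choose := dif_pos hv'
    rw [e]
    exact hv'.choose_spec
  -- a point of `B`
  obtain ⟨v0, hv0⟩ : B.Nonempty := by
    obtain ⟨f, hf⟩ := hne
    -- walk to the right until one leaves `C`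
    by_contra hempty
    rw [Set.not_nonempty_iff_eq_empty] at hempty
    have hright : ∀ k : ℕ, (f.1 + k, f.2) ∈ C := by
      intro k
      induction k with
      | zero => simpa using hf
      | succ k ih =>
        by_contra hk
        have : (f.1 + (k + 1 : ℕ), f.2) ∈ B := by
          refine ⟨(f.1 + (k + 1 : ℕ), f.2 + 1), Or.inr (Or.inl ⟨rfl, ?_, hk⟩)⟩
          have : (f.1 + ((k + 1 : ℕ) : ℤ) - 1, f.2) = (f.1 + k, f.2) := by
            push_cast; congr 1; ring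
          simpa only [this] using ih
        rw [hempty] at this
        exact this
    have h1 := hbox _ (hright (2 * M + 1).toNat)
    have h2 := hbox _ hf
    simp only at h1
    omega
  obtain ⟨γ, hγ⟩ := exists_latCycle hBfin (s := s) (fun v hv => out_next (hs v hv))
    (fun v hv w hw h => in_unique hp (hs v hv) (h ▸ hs w hw)) (fun v hv => (hs v hv).adj)
    (fun v hv h => out_two (hs v hv) (by
      have h3 := hs (s v) (out_next (hs v hv))
      rwa [h] at h3)) hv0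
  refine ⟨γ, ?_⟩
  -- the two sides of an edge of `γ`
  have hedge : ∀ u v, γ.edge u v → ∃ F G, side u v F ∧ side u v G ∧ F ∈ C ∧ G ∉ C := by
    rintro u v ⟨i, ⟨rfl, rfl⟩ | ⟨rfl, rfl⟩⟩
    · have h1 := hs _ (hγ i).1
      rw [← (hγ i).2] at h1
      exact h1.sides
    · have h1 := hs _ (hγ i).1
      rw [← (hγ i).2] at h1
      obtain ⟨F, G, hF, hG, h⟩ := h1.sides
      exact ⟨F, G, side_comm.1 hF, side_comm.1 hG, h⟩
  have hstep : ∀ f g : Pt, Adj f g → (f ∈ C ↔ g ∈ C) → (γ.inside f ↔ γ.inside g) := by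
    intro f g hadj hfg
    rcases step_or_edge (γ := γ) hadj with h | ⟨u, v, he, hf, hg⟩
    · exact h.inside_iff
    · exfalso
      obtain ⟨F, G, hF, hG, hFC, hGC⟩ := hedge u v he
      have hne : f ≠ g := P155.L.adj_ne hadj
      rcases side_eq he.adj hf hg hF hne with rfl | rfl <;>
        rcases side_eq he.adj hf hg hG hne with rfl | rfl <;> tauto
  have hC : ∀ f ∈ C, ∀ g ∈ C, (γ.inside f ↔ γ.inside g) := by
    intro f hf g hg
    have := hconn f hf g hg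
    clear hg
    induction this with
    | refl => rfl
    | tail _ h ih => exact ih.trans (hstep _ _ h.2.2 ⟨fun _ => h.2.1, fun _ => h.1⟩)
  have hCc : ∀ f ∉ C, ¬ γ.inside f := by
    intro f hf
    obtain ⟨g, hg, hr⟩ := hout f hf
    have h1 : γ.inside f ↔ γ.inside g := by
      clear hg
      induction hr with
      | refl => rfl
      | tail _ h ih => exact ih.trans (hstep _ _ h.2.2 ⟨fun h' => absurd h' h.1,
          fun h' => absurd h' h.2.1⟩)
    rw [h1]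
    intro hin
    apply hg
    obtain ⟨⟨j1, k1, l1⟩, ⟨j2, k2, l2⟩, ⟨j3, k3, l3⟩, ⟨j4, k4, l4⟩⟩ := inside_box hin
    have hv : ∀ v ∈ γ.verts, -M ≤ v.1 ∧ v.1 ≤ M + 1 ∧ -M ≤ v.2 ∧ v.2 ≤ M + 1 := by
      rintro v ⟨i, rfl⟩
      exact hBbox _ (hγ i).1
    have m1 := hv _ ((vedge_iff γ _ _).1 l1).mem_left
    have m2 := hv _ ((vedge_iff γ _ _).1 l2).mem_left
    have m3 := hv _ ((hedge_iff γ _ _).1 l3).mem_left
    have m4 := hv _ ((hedge_iff γ _ _).1 l4).mem_left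
    simp only at m1 m2 m3 m4
    omega
  -- one cell of `C` is inside
  obtain ⟨F, hF, hFin⟩ := edge_inside (γ := γ) 0
  have hFC : F ∈ C := by
    by_contra h
    exact hCc F h hFin
  intro f
  constructor
  · intro h
    by_contra hf
    exact hCc f hf h
  · intro h
    exact (hC F hFC f h).1 hFin

end Vale.Agent.P155.EXA
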