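import Vale.Agent.P155.EXA878.Blocks

/-!
# P155, existence of Temperleyan approximations: the component of blocks exhausts the domain
-/

namespace Vale.Agent.P155.EXA

open Relation LatCycle Set Topology

variable {Ω : Set ℂ} {h : ℝ}

theorem mem_region_iff {δ : ℝ} {a z : ℂ} {S : Set Pt} :
    z ∈ region δ a S ↔ ∃ f ∈ S, z ∈ sqr δ a f := by
  unfold region
  rw [mem_iUnion₂]
  simp only [exists_prop]

/-- points of near squares are close -/
theorem dist_of_near (hh : 0 < h) {f g : Pt} {z w : ℂ} (hz : z ∈ sqr h 0 f) (hw : w ∈ sqr h 0 g)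
    {n : ℤ} (h1 : |f.1 - g.1| ≤ n) (h2 : |f.2 - g.2| ≤ n) : dist z w ≤ 2 * (n + 1) * h := by
  obtain ⟨s, t, a1, a2, a3, a4, rfl⟩ := hz
  obtain ⟨s', t', b1, b2, b3, b4, rfl⟩ := hw
  rw [dist_eq_norm]
  have e : (0 : ℂ) + (h : ℂ) * ((((f.1 : ℝ) + s : ℝ) : ℂ) + (((f.2 : ℝ) + t : ℝ) : ℂ) * Complex.I) -
      (0 + (h : ℂ) * ((((g.1 : ℝ) + s' : ℝ) : ℂ) + (((g.2 : ℝ) + t' : ℝ) : ℂ) * Complex.I)) =
      ((h * (f.1 - g.1 + (s - s')) : ℝ) : ℂ) + ((h * (f.2 - g.2 + (t - t')) : ℝ) : ℂ) *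
        Complex.I := by
    push_cast
    ring
  rw [e]
  refine (norm_add_le _ _).trans ?_
  rw [norm_mul, Complex.norm_I, mul_one, Complex.norm_real, Complex.norm_real, Real.norm_eq_abs,
    Real.norm_eq_abs, abs_mul, abs_mul, abs_of_pos hh]
  have c1 : |(f.1 : ℝ) - g.1| ≤ n := by exact_mod_cast h1
  have c2 : |(f.2 : ℝ) - g.2| ≤ n := by exact_mod_cast h2
  have d1 : |(f.1 : ℝ) - g.1 + (s - s')| ≤ n + 1 := by
    refine (abs_add_le _ _).trans (add_le_add c1 (abs_le.2 ⟨by linarith, by linarith⟩))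
  have d2 : |(f.2 : ℝ) - g.2 + (t - t')| ≤ n + 1 := by
    refine (abs_add_le _ _).trans (add_le_add c2 (abs_le.2 ⟨by linarith, by linarith⟩))
  nlinarith

/-- a block which meets a set at distance `> 10 h` from the complement is not near a bad block -/
theorem notMem_badN (hh : 0 < h) {z : ℂ} (hz : Metric.closedBall z (10 * h) ⊆ Ω) {f g : Pt}
    (hzf : z ∈ sqr h 0 f) (h1 : |f.1 - g.1| ≤ 2) (h2 : |f.2 - g.2| ≤ 2) : g ∉ badN Ω h := by
  rintro ⟨k, hk, h3, h4, h5, h6⟩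
  apply hk
  intro w hw
  apply hz
  rw [Metric.mem_closedBall, dist_comm]
  have := dist_of_near hh hzf hw (n := 3) (by rw [abs_le] at h1 ⊢; omega)
    (by rw [abs_le] at h2 ⊢; omega)
  push_cast at this
  linarith

/-- A connected set well inside `Ω` which meets the component is covered by the component. -/
theorem sub_region_cb (hh : 0 < h) (hb : Bornology.IsBounded Ω) {f0 : Pt}
    {K : Set ℂ} (hK : IsPreconnected K)
    (hKd : ∀ z ∈ K, Metric.closedBall z (10 * h) ⊆ Ω) {z0 : ℂ} (hz0 : z0 ∈ K)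
    (hzf : z0 ∈ sqr h 0 f0) {z : ℂ} (hz : z ∈ K) {f : Pt} (hf : z ∈ sqr h 0 f) :
    f ∈ cb Ω h f0 := by
  obtain ⟨M, hM0, hM⟩ := exists_box hb hh
  -- near blocks in the same component
  have hnear : ∀ w ∈ K, ∀ f g : Pt, w ∈ sqr h 0 f → w ∈ sqr h 0 g → f ∈ cb Ω h f0 →
      g ∈ cb Ω h f0 := by
    intro w hw f g hwf hwg hf
    obtain ⟨c1, c2, c3, c4⟩ := KConn.close_of_meet hh hwf hwg
    refine ReflTransGen.trans hf (rel_symm (near_path (S := (badN Ω h)ᶜ) ?_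
      ⟨c2, c1, c4, c3⟩))
    rintro k ⟨k1, k2, k3, k4⟩
    exact notMem_badN hh (hKd w hw) hwf (by rw [abs_le]; omega) (by rw [abs_le]; omega)
  -- the two closed sets
  let A : Set Pt := {f | f ∈ cb Ω h f0 ∧ Box M f}
  let B : Set Pt := {f | f ∉ cb Ω h f0 ∧ Box M f}
  have hA : IsClosed (region h 0 A) :=
    (KConn.isCompact_region hh ((box_finite M).subset fun f hf => hf.2)).isClosed
  have hB : IsClosed (region h 0 B) :=
    (KConn.isCompact_region hh ((box_finite M).subset fun f hf => hf.2)).isClosed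
  have hbox : ∀ w ∈ K, ∀ f, w ∈ sqr h 0 f → Box M f := by
    intro w hw f hwf
    by_contra hN
    exact notMem_badN hh (hKd w hw) hwf (g := f) (by simp) (by simp) (bad_sub (hM f hN))
  by_contra hcon
  have hcov : K ⊆ region h 0 A ∪ region h 0 B := by
    intro w hw
    have hwc : w ∈ sqr h 0 (Vale.Agent.P155.K.cell h 0 w) := Q1.mem_sqr_cell hh w
    by_cases hc : Vale.Agent.P155.K.cell h 0 w ∈ cb Ω h f0
    · exact Or.inl (mem_region_iff.2 ⟨_, ⟨hc, hbox w hw _ hwc⟩, hwc⟩)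
    · exact Or.inr (mem_region_iff.2 ⟨_, ⟨hc, hbox w hw _ hwc⟩, hwc⟩)
  obtain ⟨w, hw, hwA, hwB⟩ := isPreconnected_closed_iff.1 hK _ _ hA hB hcov
    ⟨z0, hz0, mem_region_iff.2 ⟨f0, ⟨ReflTransGen.refl, hbox _ hz0 _ hzf⟩, hzf⟩⟩
    ⟨z, hz, mem_region_iff.2 ⟨f, ⟨hcon, hbox _ hz _ hf⟩, hf⟩⟩
  obtain ⟨f1, hf1, hw1⟩ := mem_region_iff.1 hwA
  obtain ⟨f2, hf2, hw2⟩ := mem_region_iff.1 hwB
  exact hf2.1 (hnear w hw f1 f2 hw1 hw2 hf1.1)

/-- Compact subsets of a connected open set are contained in compact connected subsets. -/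
theorem exists_conn_compact (hΩ : IsOpen Ω) (hc : IsConnected Ω) {K : Set ℂ} (hK : IsCompact K)
    (hKΩ : K ⊆ Ω) {z0 : ℂ} (hz0 : z0 ∈ Ω) :
    ∃ K', IsCompact K' ∧ IsPreconnected K' ∧ K ⊆ K' ∧ z0 ∈ K' ∧ K' ⊆ Ω := by
  have hpc : IsPathConnected Ω := (hΩ.isConnected_iff_isPathConnected).1 hc
  -- a compact connected neighbourhood joined to `z0` for each point
  have hloc : ∀ x ∈ K, ∃ U ∈ 𝓝 x, ∃ D, IsCompact D ∧ IsPreconnected D ∧ U ⊆ D ∧ z0 ∈ D ∧ D ⊆ Ω := by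
    intro x hx
    obtain ⟨r, hr, hrΩ⟩ := Metric.isOpen_iff.1 hΩ x (hKΩ hx)
    have hsub : Metric.closedBall x (r / 2) ⊆ Ω :=
      (Metric.closedBall_subset_ball (by linarith)).trans hrΩ
    obtain ⟨γ, hγ⟩ := hpc.joinedIn z0 hz0 x (hKΩ hx)
    refine ⟨Metric.closedBall x (r / 2), Metric.closedBall_mem_nhds x (by linarith),
      range γ ∪ Metric.closedBall x (r / 2),
      (isCompact_range γ.continuous).union (isCompact_closedBall x _), ?_, subset_union_right,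
      Or.inl ⟨0, γ.source⟩, union_subset ?_ hsub⟩
    · exact (isPreconnected_range γ.continuous).union x ⟨1, γ.target⟩
        (Metric.mem_closedBall_self (by linarith)) (convex_closedBall x _).isPreconnected
    · rintro _ ⟨t, rfl⟩
      exact hγ t
  choose! U hU D hD1 hD2 hD3 hD4 hD5 using hloc
  obtain ⟨t, ht, htK⟩ := hK.elim_nhds_subcover U hU
  rcases t.eq_empty_or_nonempty with rfl | hne
  · refine ⟨{z0}, isCompact_singleton, isPreconnected_singleton, ?_, rfl, by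
      rintro _ rfl; exact hz0⟩
    intro x hx
    simpa using htK hx
  obtain ⟨x0, hx0⟩ := hne
  refine ⟨⋃ x ∈ t, D x, t.isCompact_biUnion fun x hx => hD1 x (ht x hx), ?_, ?_, ?_, ?_⟩
  · have := isPreconnected_sUnion z0 (D '' (t : Set ℂ))
      (by rintro _ ⟨x, hx, rfl⟩; exact hD4 x (ht x hx))
      (by rintro _ ⟨x, hx, rfl⟩; exact hD2 x (ht x hx))
    rw [sUnion_image] at this
    exact this
  · intro x hx
    obtain ⟨y, hy, hxy⟩ := mem_iUnion₂.1 (htK hx)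
    exact mem_iUnion₂.2 ⟨y, hy, hD3 y (ht y hy) hxy⟩
  · exact mem_iUnion₂.2 ⟨x0, hx0, hD4 x0 (ht x0 hx0)⟩
  · exact iUnion₂_subset fun x hx => hD5 x (ht x hx)

end Vale.Agent.P155.EXA
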