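import Vale.Agent.P155.EXA878.Cyc

/-!
# P155, existence of Temperleyan approximations: removing pinch points by refinement
-/

namespace Vale.Agent.P155.EXA

open Relation LatCycle

/-- adjacent cells of `S` -/
def Rel (S : Set Pt) (a b : Pt) : Prop := a ∈ S ∧ b ∈ S ∧ Adj a b

theorem Rel.symm {S : Set Pt} {a b : Pt} (h : Rel S a b) : Rel S b a :=
  ⟨h.2.1, h.1, P155.L.adj_symm h.2.2⟩

theorem rel_symm {S : Set Pt} {a b : Pt} (h : ReflTransGen (Rel S) a b) :
    ReflTransGen (Rel S) b a := by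
  induction h with
  | refl => exact ReflTransGen.refl
  | tail _ h ih => exact ReflTransGen.head h.symm ih

theorem rel_mono {S S' : Set Pt} (hS : S ⊆ S') {a b : Pt} (h : ReflTransGen (Rel S) a b) :
    ReflTransGen (Rel S') a b := by
  induction h with
  | refl => exact ReflTransGen.refl
  | tail _ h ih => exact ih.tail ⟨hS h.1, hS h.2.1, h.2.2⟩

theorem adj_of {u v : Pt} (h : (v.1 = u.1 + 1 ∧ v.2 = u.2) ∨ (v.1 = u.1 - 1 ∧ v.2 = u.2) ∨
    (v.1 = u.1 ∧ v.2 = u.2 + 1) ∨ (v.1 = u.1 ∧ v.2 = u.2 - 1)) : Adj u v := by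
  obtain ⟨a, b⟩ := u
  obtain ⟨c, d⟩ := v
  simp only at h
  rcases h with ⟨rfl, rfl⟩ | ⟨rfl, rfl⟩ | ⟨rfl, rfl⟩ | ⟨rfl, rfl⟩ <;> simp [Adj]

/-- the box -/
def Box (M : ℤ) (g : Pt) : Prop := -M ≤ g.1 ∧ g.1 ≤ M ∧ -M ≤ g.2 ∧ g.2 ≤ M

/-- A finite nonempty connected set of cells whose complement is connected to infinity. -/
structure Disc (C : Set Pt) : Prop where
  box : ∃ M : ℤ, ∀ f ∈ C, Box M f
  ne : C.Nonempty
  conn : ∀ f ∈ C, ∀ g ∈ C, ReflTransGen (Rel C) f g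
  out : ∀ N : ℤ, ∀ f ∉ C, ∃ g, ¬ Box N g ∧ ReflTransGen (Rel Cᶜ) f g

theorem Disc.exists_cycle {C : Set Pt} (h : Disc C) (hp : NoPinch C) :
    ∃ γ : LatCycle, ∀ f, γ.inside f ↔ f ∈ C := by
  obtain ⟨M, hM⟩ := h.box
  exact EXA.exists_cycle hp hM h.ne h.conn (h.out M)

/-- refinement by the factor `3`, the convex corners being removed -/
def ref3 (C : Set Pt) : Set Pt :=
  {f | (f.1 / 3, f.2 / 3) ∈ C ∧
    ((f.1 / 3 + (f.1 % 3 - 1), f.2 / 3) ∈ C ∨ (f.1 / 3, f.2 / 3 + (f.2 % 3 - 1)) ∈ C)}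

variable {C : Set Pt}

theorem noPinch_ref3 : NoPinch (ref3 C) := by
  have k0 : ∀ x : ℤ, (x % 3 = 0 ∧ (x - 1) / 3 = x / 3 - 1 ∧ (x - 1) % 3 = 2) ∨
      (x % 3 = 1 ∧ (x - 1) / 3 = x / 3 ∧ (x - 1) % 3 = 0) ∨
      (x % 3 = 2 ∧ (x - 1) / 3 = x / 3 ∧ (x - 1) % 3 = 1) := by intro x; omega
  intro x y
  simp only [ref3, Set.mem_ofPred_eq]
  rcases k0 x with ⟨e1, e2, e3⟩ | ⟨e1, e2, e3⟩ | ⟨e1, e2, e3⟩ <;>
  rcases k0 y with ⟨f1, f2, f3⟩ | ⟨f1, f2, f3⟩ | ⟨f1, f2, f3⟩ <;>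
  rw [e1, e2, e3, f1, f2, f3] <;>
  norm_num only [sub_add_cancel, add_zero, Int.add_neg_one] <;>
  (constructor <;> rintro ⟨h1, h2, h3, h4⟩) <;> tauto

/-- the centre cell of a block -/
def ctr (b : Pt) : Pt := (3 * b.1 + 1, 3 * b.2 + 1)

/-- the block of a cell -/
def blk (f : Pt) : Pt := (f.1 / 3, f.2 / 3)

section paths

variable {A S : Set Pt} (hS : ∀ f, blk f ∈ A → (f.1 % 3 = 1 ∨ f.2 % 3 = 1) → f ∈ S)
include hS

theorem ctr_mem {b : Pt} (hb : b ∈ A) : ctr b ∈ S := by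
  refine hS _ ?_ (Or.inl ?_)
  · have : blk (ctr b) = b := by
      unfold blk ctr
      exact Prod.ext (by simp only; omega) (by simp only; omega)
    rwa [this]
  · unfold ctr; simp only; omega

/-- a cell of `S` is joined to the centre of its block -/
theorem to_ctr {f : Pt} (hf : f ∈ S) (hb : blk f ∈ A) : ReflTransGen (Rel S) f (ctr (blk f)) := by
  -- first step: to the column of the centre
  have h1 : ReflTransGen (Rel S) f (3 * (f.1 / 3) + 1, f.2) := by
    by_cases h : f.1 = 3 * (f.1 / 3) + 1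
    · have : f = (3 * (f.1 / 3) + 1, f.2) := Prod.ext h rfl
      rw [← this]
    · refine ReflTransGen.single ⟨hf, hS _ ?_ (Or.inl ?_), ?_⟩
      · have : blk (3 * (f.1 / 3) + 1, f.2) = blk f := by
          unfold blk
          exact Prod.ext (by simp only; omega) rfl
        rwa [this]
      · simp only; omega
      · refine adj_of ?_
        dsimp only
        omega
  have hm : (3 * (f.1 / 3) + 1, f.2) ∈ S := by
    refine hS _ ?_ (Or.inl ?_)
    · have : blk (3 * (f.1 / 3) + 1, f.2) = blk f := by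
        unfold blk
        exact Prod.ext (by simp only; omega) rfl
      rwa [this]
    · simp only; omega
  refine h1.trans ?_
  by_cases h : f.2 = 3 * (f.2 / 3) + 1
  · have : ((3 * (f.1 / 3) + 1, f.2) : Pt) = ctr (blk f) := by
      unfold ctr blk
      exact Prod.ext rfl h
    rw [← this]
  · refine ReflTransGen.single ⟨hm, ctr_mem hS hb, adj_of ?_⟩
    unfold ctr blk
    dsimp only
    omega

/-- adjacent blocks: their centres are joined -/
theorem ctr_step {a b : Pt} (h : Rel A a b) : ReflTransGen (Rel S) (ctr a) (ctr b) := by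
  obtain ⟨ha, hb, hadj⟩ := h
  obtain ⟨x, y⟩ := a
  have key : ∀ c d : Pt, c ∈ S → d ∈ S → Adj c d → ReflTransGen (Rel S) c d :=
    fun c d hc hd h => ReflTransGen.single ⟨hc, hd, h⟩
  have hm : ∀ f : Pt, (blk f = (x, y) ∨ blk f = b) → (f.1 % 3 = 1 ∨ f.2 % 3 = 1) → f ∈ S := by
    rintro f (h | h) h2
    · exact hS f (h ▸ ha) h2
    · exact hS f (h ▸ hb) h2
  rcases adj_cases hadj with rfl | rfl | rfl | rfl
  · refine ((key _ (3 * x + 2, 3 * y + 1) (ctr_mem hS ha) (hm _ (Or.inl ?_) ?_) (adj_of ?_)).trans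
      (key _ (3 * x + 3, 3 * y + 1) (hm _ (Or.inl ?_) ?_) (hm _ (Or.inr ?_) ?_) (adj_of ?_))).trans
      (key _ _ (hm _ (Or.inr ?_) ?_) (ctr_mem hS hb) (adj_of ?_))
    all_goals first | (dsimp only [blk, ctr]; omega) | (simp only [blk, Prod.mk.injEq]; omega)
  · refine ((key _ (3 * x, 3 * y + 1) (ctr_mem hS ha) (hm _ (Or.inl ?_) ?_) (adj_of ?_)).trans
      (key _ (3 * x - 1, 3 * y + 1) (hm _ (Or.inl ?_) ?_) (hm _ (Or.inr ?_) ?_) (adj_of ?_))).trans
      (key _ _ (hm _ (Or.inr ?_) ?_) (ctr_mem hS hb) (adj_of ?_))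
    all_goals first | (dsimp only [blk, ctr]; omega) | (simp only [blk, Prod.mk.injEq]; omega)
  · refine ((key _ (3 * x + 1, 3 * y + 2) (ctr_mem hS ha) (hm _ (Or.inl ?_) ?_) (adj_of ?_)).trans
      (key _ (3 * x + 1, 3 * y + 3) (hm _ (Or.inl ?_) ?_) (hm _ (Or.inr ?_) ?_) (adj_of ?_))).trans
      (key _ _ (hm _ (Or.inr ?_) ?_) (ctr_mem hS hb) (adj_of ?_))
    all_goals first | (dsimp only [blk, ctr]; omega) | (simp only [blk, Prod.mk.injEq]; omega)
  · refine ((key _ (3 * x + 1, 3 * y) (ctr_mem hS ha) (hm _ (Or.inl ?_) ?_) (adj_of ?_)).trans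
      (key _ (3 * x + 1, 3 * y - 1) (hm _ (Or.inl ?_) ?_) (hm _ (Or.inr ?_) ?_) (adj_of ?_))).trans
      (key _ _ (hm _ (Or.inr ?_) ?_) (ctr_mem hS hb) (adj_of ?_))
    all_goals first | (dsimp only [blk, ctr]; omega) | (simp only [blk, Prod.mk.injEq]; omega)

theorem ctr_path {a b : Pt} (h : ReflTransGen (Rel A) a b) :
    ReflTransGen (Rel S) (ctr a) (ctr b) := by
  induction h with
  | refl => exact ReflTransGen.refl
  | tail _ h ih => exact ih.trans (ctr_step hS h)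

end paths

theorem mid_mem_ref3 (f : Pt) (hb : blk f ∈ C) (h : f.1 % 3 = 1 ∨ f.2 % 3 = 1) :
    f ∈ ref3 C := by
  refine ⟨hb, ?_⟩
  rcases h with h | h
  · left
    rw [h, sub_self, add_zero]
    exact hb
  · right
    rw [h, sub_self, add_zero]
    exact hb

theorem disc_ref3 (h : Disc C) : Disc (ref3 C) where
  box := by
    obtain ⟨M, hM⟩ := h.box
    refine ⟨3 * M + 2, ?_⟩
    intro f hf
    have := hM _ hf.1
    unfold Box at this ⊢
    simp only at this
    omega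
  ne := by
    obtain ⟨b, hb⟩ := h.ne
    exact ⟨ctr b, ctr_mem mid_mem_ref3 hb⟩
  conn := by
    intro f hf g hg
    exact ((to_ctr mid_mem_ref3 hf hf.1).trans
      (ctr_path mid_mem_ref3 (h.conn _ hf.1 _ hg.1))).trans
      (rel_symm (to_ctr mid_mem_ref3 hg hg.1))
  out := by
    intro N f hf
    have hS : ∀ f, blk f ∈ Cᶜ → (f.1 % 3 = 1 ∨ f.2 % 3 = 1) → f ∈ (ref3 C)ᶜ := by
      intro f hb _ hf
      exact hb hf.1
    -- join `f` to the centre of a block off `C`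
    obtain ⟨b, hb, hfb⟩ : ∃ b ∉ C, ReflTransGen (Rel (ref3 C)ᶜ) f (ctr b) := by
      by_cases hb : blk f ∈ C
      · -- a removed corner
        have h1 : (f.1 / 3 + (f.1 % 3 - 1), f.2 / 3) ∉ C := fun h' => hf ⟨hb, Or.inl h'⟩
        have hne : f.1 % 3 ≠ 1 := by
          intro h'
          rw [h', sub_self, add_zero] at h1
          exact h1 hb
        have e : blk (f.1 + (f.1 % 3 - 1), f.2) = (f.1 / 3 + (f.1 % 3 - 1), f.2 / 3) := by
          unfold blk
          refine Prod.ext ?_ rfl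
          simp only
          omega
        have hg : (f.1 + (f.1 % 3 - 1), f.2) ∈ (ref3 C)ᶜ := by
          intro h'
          have h2 : blk (f.1 + (f.1 % 3 - 1), f.2) ∈ C := h'.1
          rw [e] at h2
          exact h1 h2
        refine ⟨_, h1, ?_⟩
        rw [← e]
        refine ReflTransGen.trans (ReflTransGen.single ⟨hf, hg, ?_⟩)
          (to_ctr hS hg (by rw [e]; exact h1))
        refine adj_of ?_
        dsimp only
        omega
      · exact ⟨_, hb, to_ctr hS hf hb⟩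
    obtain ⟨g, hg, hbg⟩ := h.out (|N| + 1) b hb
    refine ⟨ctr g, ?_, hfb.trans (ctr_path hS hbg)⟩
    intro hbox
    apply hg
    unfold Box ctr at *
    simp only at hbox
    have := le_abs_self N
    omega

end Vale.Agent.P155.EXA
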